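import Vale.Agent.P050.R4.H998.Gas

set_option autoImplicit false
set_option linter.unusedSectionVars false

/-!
# Lower bound of `log Z` by a sum over connected sets

`Z L = ∑ S ⊆ L, e S`, `e` multiplicative over non-adjacent sets, `|Z (L+b) - Z L| ≤ s Z L`.
Then `log Z L ≥ ∑ (g ⊆ L connected) cg g`.
-/

namespace Vale.Agent.P050.R4.H998

open Finset

variable {B : Type*} [Fintype B] [DecidableEq B]

/-- the partition function -/
def ZZ (e : Finset B → ℝ) (L : Finset B) : ℝ := ∑ S ∈ L.powerset, e S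

/-- the contribution of a connected set -/
noncomputable def cg (adj : B → B → Prop) [DecidableRel adj] (s : ℝ) (e : Finset B → ℝ)
    (g : Finset B) : ℝ :=
  if 0 ≤ e g then (1 - s) * ((1 + s) ^ (nb adj g).card)⁻¹ * e g
  else (1 + s) * ((1 - s) ^ (nb adj g).card)⁻¹ * e g

/-- step bound -/
def Step (s : ℝ) (e : Finset B → ℝ) : Prop :=
  ∀ (L : Finset B) (b : B), b ∉ L → |ZZ e (insert b L) - ZZ e L| ≤ s * ZZ e L

section
variable {adj : B → B → Prop} [DecidableRel adj] {s : ℝ} {e : Finset B → ℝ}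

lemma ZZ_pos (h0 : e ∅ = 1) (hs1 : s < 1) (hst : Step s e) (L : Finset B) : 0 < ZZ e L := by
  induction L using Finset.induction_on with
  | empty => simp [ZZ, h0]
  | insert b L hb ih =>
    have h1 := (abs_le.1 (hst L b hb)).1
    nlinarith

lemma ZZ_union_le (h0 : e ∅ = 1) (hs0 : 0 ≤ s) (hs1 : s < 1) (hst : Step s e) (L N : Finset B)
    (hd : Disjoint L N) : ZZ e (L ∪ N) ≤ (1 + s) ^ N.card * ZZ e L := by
  induction N using Finset.induction_on with
  | empty => simp
  | insert b N hb ih =>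
    have hd' : Disjoint L N := hd.mono_right (subset_insert b N)
    have hbL : b ∉ L := fun h => (disjoint_left.1 hd h) (mem_insert_self b N)
    have hbU : b ∉ L ∪ N := by
      rw [mem_union]; push Not; exact ⟨hbL, hb⟩
    have h1 := (abs_le.1 (hst (L ∪ N) b hbU)).2
    rw [union_insert, card_insert_of_notMem hb, pow_succ]
    have h2 := ih hd'
    have h3 := ZZ_pos h0 hs1 hst (L ∪ N)
    nlinarith

lemma ZZ_union_ge (h0 : e ∅ = 1) (hs0 : 0 ≤ s) (hs1 : s < 1) (hst : Step s e) (L N : Finset B)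
    (hd : Disjoint L N) : (1 - s) ^ N.card * ZZ e L ≤ ZZ e (L ∪ N) := by
  induction N using Finset.induction_on with
  | empty => simp
  | insert b N hb ih =>
    have hd' : Disjoint L N := hd.mono_right (subset_insert b N)
    have hbL : b ∉ L := fun h => (disjoint_left.1 hd h) (mem_insert_self b N)
    have hbU : b ∉ L ∪ N := by
      rw [mem_union]; push Not; exact ⟨hbL, hb⟩
    have h1 := (abs_le.1 (hst (L ∪ N) b hbU)).1
    rw [union_insert, card_insert_of_notMem hb, pow_succ]
    have h2 := ih hd'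
    have h3 := ZZ_pos h0 hs1 hst (L ∪ N)
    have h4 : (1 - s) ^ N.card * (1 - s) * ZZ e L = (1 - s) * ((1 - s) ^ N.card * ZZ e L) := by
      ring
    rw [h4]
    calc (1 - s) * ((1 - s) ^ N.card * ZZ e L) ≤ (1 - s) * ZZ e (L ∪ N) :=
          mul_le_mul_of_nonneg_left h2 (by linarith)
      _ ≤ _ := by linarith

lemma ratio_ge (h0 : e ∅ = 1) (hs0 : 0 ≤ s) (hs1 : s < 1) (hst : Step s e) (L N : Finset B) :
    ((1 + s) ^ N.card)⁻¹ ≤ ZZ e (L \ N) / ZZ e L := by
  have hL := ZZ_pos h0 hs1 hst L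
  rw [inv_eq_one_div, div_le_div_iff₀ (by positivity) hL, one_mul]
  have h1 := ZZ_union_le h0 hs0 hs1 hst (L \ N) (L ∩ N) (disjoint_sdiff_inter L N)
  rw [sdiff_union_inter] at h1
  have h2 : (1 + s) ^ (L ∩ N).card ≤ (1 + s) ^ N.card :=
    pow_le_pow_right₀ (by linarith) (card_le_card inter_subset_right)
  have h3 := ZZ_pos h0 hs1 hst (L \ N)
  calc ZZ e L ≤ (1 + s) ^ (L ∩ N).card * ZZ e (L \ N) := h1
    _ ≤ (1 + s) ^ N.card * ZZ e (L \ N) := mul_le_mul_of_nonneg_right h2 h3.le
    _ = _ := by ring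

lemma ratio_le (h0 : e ∅ = 1) (hs0 : 0 ≤ s) (hs1 : s < 1) (hst : Step s e) (L N : Finset B) :
    ZZ e (L \ N) / ZZ e L ≤ ((1 - s) ^ N.card)⁻¹ := by
  have hL := ZZ_pos h0 hs1 hst L
  have hp : (0 : ℝ) < (1 - s) ^ N.card := pow_pos (by linarith) _
  rw [inv_eq_one_div, div_le_div_iff₀ hL hp, one_mul]
  have h1 := ZZ_union_ge h0 hs0 hs1 hst (L \ N) (L ∩ N) (disjoint_sdiff_inter L N)
  rw [sdiff_union_inter] at h1
  have h2 : (1 - s) ^ N.card ≤ (1 - s) ^ (L ∩ N).card :=
    pow_le_pow_of_le_one (by linarith) (by linarith) (card_le_card inter_subset_right)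
  have h3 := ZZ_pos h0 hs1 hst (L \ N)
  calc ZZ e (L \ N) * (1 - s) ^ N.card = (1 - s) ^ N.card * ZZ e (L \ N) := by ring
    _ ≤ (1 - s) ^ (L ∩ N).card * ZZ e (L \ N) := mul_le_mul_of_nonneg_right h2 h3.le
    _ ≤ _ := h1

lemma log_ge {x : ℝ} (hs : s ≤ 1 / 2) (hx : |x| ≤ s) : x - s * |x| ≤ Real.log (1 + x) := by
  have h1 := abs_le.1 hx
  have hpos : 0 < 1 + x := by linarith
  -- `log (1+x) ≥ 1 - 1/(1+x) = x/(1+x)`
  have hsq : x ^ 2 ≤ s * |x| := by
    rw [← sq_abs, sq]
    exact mul_le_mul_of_nonneg_right hx (abs_nonneg x)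
  rcases le_or_gt 0 x with h | h
  · have h2 : 1 - (1 + x)⁻¹ ≤ Real.log (1 + x) := Real.one_sub_inv_le_log_of_pos hpos
    have h3 : x - x ^ 2 ≤ 1 - (1 + x)⁻¹ := by
      have : 1 - (1 + x)⁻¹ = x / (1 + x) := by field_simp; ring
      rw [this, le_div_iff₀ hpos]
      nlinarith [pow_nonneg h 3]
    linarith
  · -- negative `x`: `log(1+x) ≥ x - x^2` on `[-1/2, 0]`
    have h2 : x - x ^ 2 ≤ Real.log (1 + x) := by
      have h4 : (1 + x)⁻¹ ≤ Real.exp (x ^ 2 - x) := by
        have h5 : 1 + (x ^ 2 - x) ≤ Real.exp (x ^ 2 - x) := by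
          have := Real.add_one_le_exp (x ^ 2 - x)
          linarith
        have h6 : 1 + (x ^ 2 - x) + (x ^ 2 - x) ^ 2 / 2 ≤ Real.exp (x ^ 2 - x) :=
          Real.quadratic_le_exp_of_nonneg (by nlinarith)
        refine le_trans ?_ h6
        rw [inv_eq_one_div, div_le_iff₀ hpos]
        have h7 : -(1 / 2) ≤ x := by linarith
        nlinarith [mul_nonneg (sq_nonneg x) (by linarith : (0 : ℝ) ≤ 1 / 2 + x),
          mul_nonneg (sq_nonneg x) (by linarith : (0 : ℝ) ≤ -x), sq_nonneg (x ^ 2),
          mul_nonneg (mul_nonneg (sq_nonneg x) (by linarith : (0 : ℝ) ≤ -x))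
            (by linarith : (0 : ℝ) ≤ 1 / 2 + x)]
      have h8 : (Real.exp (x ^ 2 - x))⁻¹ ≤ 1 + x := by
        rw [inv_le_comm₀ (Real.exp_pos _) hpos]
        exact h4
      rw [← Real.exp_neg] at h8
      have h9 := Real.log_le_log (Real.exp_pos _) h8
      rw [Real.log_exp] at h9
      linarith
    linarith

end

open Classical in
/-- **lower bound of `log Z` by connected sets** -/
theorem log_ZZ_ge {adj : B → B → Prop} {s : ℝ} {e : Finset B → ℝ}
    (hsym : ∀ a c, adj a c → adj c a)
    (he : ∀ S R : Finset B, Disjoint S R → (∀ a ∈ S, ∀ c ∈ R, ¬ adj a c) → e (S ∪ R) = e S * e R)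
    (h0 : e ∅ = 1) (hs0 : 0 ≤ s) (hs1 : s ≤ 1 / 2) (hst : Step s e) (L : Finset B) :
    ∑ g ∈ L.powerset.filter (Conn adj), cg adj s e g ≤ Real.log (ZZ e L) := by
  have hs1' : s < 1 := by linarith
  induction L using Finset.induction_on with
  | empty =>
    rw [Finset.sum_eq_zero]
    · simp [ZZ, h0]
    · intro g hg
      rw [mem_filter, mem_powerset] at hg
      exact absurd (Finset.subset_empty.1 hg.1) hg.2.1.ne_empty
  | insert b L hb ih =>
    have hL := ZZ_pos h0 hs1' hst L
    have hsplit : (insert b L).powerset.filter (Conn adj) =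
        L.powerset.filter (Conn adj) ∪
          (insert b L).powerset.filter (fun g => b ∈ g ∧ Conn adj g) := by
      ext g
      simp only [mem_union, mem_filter, mem_powerset]
      constructor
      · rintro ⟨h1, h2⟩
        by_cases hbg : b ∈ g
        · exact Or.inr ⟨h1, hbg, h2⟩
        · left
          refine ⟨fun x hx => ?_, h2⟩
          rcases mem_insert.1 (h1 hx) with h3 | h3
          · exact absurd (h3 ▸ hx) hbg
          · exact h3
      · rintro (⟨h1, h2⟩ | ⟨h1, _, h2⟩)
        · exact ⟨h1.trans (subset_insert b L), h2⟩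
        · exact ⟨h1, h2⟩
    have hdisj : Disjoint (L.powerset.filter (Conn adj))
        ((insert b L).powerset.filter (fun g => b ∈ g ∧ Conn adj g)) := by
      rw [Finset.disjoint_left]
      intro g hg hg'
      rw [mem_filter, mem_powerset] at hg hg'
      exact hb (hg.1 hg'.2.1)
    rw [hsplit, Finset.sum_union hdisj]
    -- the increment
    have hins : ZZ e (insert b L) = ZZ e L + ∑ S ∈ L.powerset, e (insert b S) := by
      unfold ZZ
      rw [Finset.powerset_insert, Finset.sum_union]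
      · congr 1
        rw [Finset.sum_image]
        intro S hS R hR hSR
        simp only [Finset.coe_powerset, Set.mem_preimage, Set.mem_powerset_iff,
          Finset.coe_subset] at hS hR
        have h1 : (insert b S).erase b = (insert b R).erase b := by rw [hSR]
        rwa [erase_insert (fun h => hb (hS h)), erase_insert (fun h => hb (hR h))] at h1
      · rw [Finset.disjoint_left]
        intro S hS hS'
        rw [mem_powerset] at hS
        rw [mem_image] at hS'
        obtain ⟨R, _, rfl⟩ := hS'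
        exact hb (hS (mem_insert_self b R))
    set x : ℝ := (∑ S ∈ L.powerset, e (insert b S)) / ZZ e L with hx
    have hZ : ZZ e (insert b L) = ZZ e L * (1 + x) := by
      rw [hins, hx]
      field_simp
    have hxs : |x| ≤ s := by
      have h1 := hst L b hb
      rw [hZ, show ZZ e L * (1 + x) - ZZ e L = ZZ e L * x by ring, abs_mul, abs_of_pos hL] at h1
      nlinarith
    have hxsum : x = ∑ g ∈ (insert b L).powerset.filter (fun g => b ∈ g ∧ Conn adj g),
        e g * (ZZ e (L \ nb adj g) / ZZ e L) := by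
      rw [hx, sum_insert hsym e he hb, Finset.sum_div]
      refine Finset.sum_congr rfl fun g _ => ?_
      rw [mul_div_assoc]
      rfl
    have hlog : Real.log (ZZ e (insert b L)) = Real.log (ZZ e L) + Real.log (1 + x) := by
      have h1 := abs_le.1 hxs
      rw [hZ, Real.log_mul hL.ne' (by linarith)]
    rw [hlog]
    refine add_le_add ih (le_trans ?_ (log_ge hs1 hxs))
    have habs : |x| ≤ ∑ g ∈ (insert b L).powerset.filter (fun g => b ∈ g ∧ Conn adj g),
        |e g| * (ZZ e (L \ nb adj g) / ZZ e L) := by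
      rw [hxsum]
      refine (Finset.abs_sum_le_sum_abs _ _).trans (Finset.sum_le_sum fun g _ => ?_)
      rw [abs_mul, abs_of_pos (div_pos (ZZ_pos h0 hs1' hst _) hL)]
    have h1 : ∑ g ∈ (insert b L).powerset.filter (fun g => b ∈ g ∧ Conn adj g),
        (e g - s * |e g|) * (ZZ e (L \ nb adj g) / ZZ e L) ≤ x - s * |x| := by
      have h2 : ∑ g ∈ (insert b L).powerset.filter (fun g => b ∈ g ∧ Conn adj g),
          (e g - s * |e g|) * (ZZ e (L \ nb adj g) / ZZ e L) =
          x - s * ∑ g ∈ (insert b L).powerset.filter (fun g => b ∈ g ∧ Conn adj g),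
            |e g| * (ZZ e (L \ nb adj g) / ZZ e L) := by
        conv_rhs => rw [hxsum]
        rw [Finset.mul_sum, ← Finset.sum_sub_distrib]
        refine Finset.sum_congr rfl fun g _ => ?_
        ring
      rw [h2]
      linarith [mul_le_mul_of_nonneg_left habs hs0]
    refine le_trans (Finset.sum_le_sum fun g _ => ?_) h1
    have hge := ratio_ge h0 hs0 hs1' hst L (nb adj g)
    have hle := ratio_le h0 hs0 hs1' hst L (nb adj g)
    unfold cg
    split_ifs with hpos
    · rw [abs_of_nonneg hpos]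
      have h3 : 0 ≤ (1 - s) * e g := mul_nonneg (by linarith) hpos
      calc (1 - s) * ((1 + s) ^ (nb adj g).card)⁻¹ * e g
          = ((1 - s) * e g) * ((1 + s) ^ (nb adj g).card)⁻¹ := by ring
        _ ≤ ((1 - s) * e g) * (ZZ e (L \ nb adj g) / ZZ e L) :=
            mul_le_mul_of_nonneg_left hge h3
        _ = _ := by ring
    · push Not at hpos
      rw [abs_of_neg hpos]
      have h3 : (1 + s) * e g ≤ 0 := mul_nonpos_of_nonneg_of_nonpos (by linarith) hpos.le
      calc (1 + s) * ((1 - s) ^ (nb adj g).card)⁻¹ * e g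
          = ((1 + s) * e g) * ((1 - s) ^ (nb adj g).card)⁻¹ := by ring
        _ ≤ ((1 + s) * e g) * (ZZ e (L \ nb adj g) / ZZ e L) :=
            mul_le_mul_of_nonpos_left hle h3
        _ = _ := by ring

end Vale.Agent.P050.R4.H998
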