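import Vale.Agent.P050.R4.H998.Gas

set_option autoImplicit false
set_option linter.unusedSectionVars false

/-!
# Counting the connected sets which contain a given set (percolation proof)
-/

namespace Vale.Agent.P050.R4.H998

open Finset

variable {B : Type*} [Fintype B] [DecidableEq B]

section
variable {adj : B → B → Prop} [DecidableRel adj]

/-- compatibility of a connected set with the set of open points -/
def Cp (adj : B → B → Prop) [DecidableRel adj] (c₀ g S : Finset B) : Prop :=
  g \ c₀ ⊆ S ∧ Disjoint S (nb adj g \ g)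

lemma Cp.sub {c₀ g g' S : Finset B} (hc : c₀.Nonempty) (hg : c₀ ⊆ g) (hg' : c₀ ⊆ g')
    (hC : Conn adj g) (h : Cp adj c₀ g S) (h' : Cp adj c₀ g' S) : g ⊆ g' := by
  by_contra hn
  have h1 : g ∩ g' ≠ g := fun h2 => hn (inter_eq_left.1 h2)
  obtain ⟨a, ha, y, hy, hay⟩ := hC.2 (g ∩ g') inter_subset_left (hc.mono (subset_inter hg hg')) h1
  rw [mem_sdiff, mem_inter] at hy
  rw [mem_inter] at ha
  have hyg' : y ∉ g' := fun h2 => hy.2 ⟨hy.1, h2⟩
  have h2 : y ∈ S := h.1 (mem_sdiff.2 ⟨hy.1, fun h3 => hyg' (hg' h3)⟩)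
  refine disjoint_left.1 h'.2 h2 (mem_sdiff.2 ⟨?_, hyg'⟩)
  rw [nb, mem_filter]
  exact ⟨mem_univ y, Or.inr ⟨a, ha.2, hay⟩⟩

lemma subset_nb (g : Finset B) : g ⊆ nb adj g := fun x hx => by
  rw [nb, mem_filter]; exact ⟨mem_univ x, Or.inl hx⟩

open Classical in
lemma weight_eq (p : ℝ) {c₀ g : Finset B} (hg : c₀ ⊆ g) :
    p ^ (g \ c₀).card * (1 - p) ^ (nb adj g \ g).card =
      ∑ S ∈ (univ \ c₀).powerset.filter (fun S => Cp adj c₀ g S),
        p ^ S.card * (1 - p) ^ ((univ \ c₀ : Finset B).card - S.card) := by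
  have hone : (1 : ℝ) = ∑ R ∈ (univ \ nb adj g).powerset,
      p ^ R.card * (1 - p) ^ ((univ \ nb adj g : Finset B).card - R.card) := by
    rw [Finset.sum_pow_mul_eq_add_pow]
    simp
  have hcard : (univ \ c₀ : Finset B).card =
      (g \ c₀).card + (nb adj g \ g).card + (univ \ nb adj g : Finset B).card := by
    have h1 : (univ \ c₀ : Finset B) = ((g \ c₀) ∪ (nb adj g \ g)) ∪ (univ \ nb adj g) := by
      ext x
      simp only [mem_sdiff, mem_univ, true_and, mem_union]
      constructor
      · intro h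
        by_cases h2 : x ∈ nb adj g
        · by_cases h3 : x ∈ g
          · exact Or.inl (Or.inl ⟨h3, h⟩)
          · exact Or.inl (Or.inr ⟨h2, h3⟩)
        · exact Or.inr h2
      · rintro ((⟨_, h⟩ | ⟨_, h⟩) | h)
        · exact h
        · exact fun h2 => h (hg h2)
        · exact fun h2 => h (subset_nb g (hg h2))
    rw [h1, card_union_of_disjoint, card_union_of_disjoint]
    · rw [disjoint_left]
      intro x hx hx'
      exact (mem_sdiff.1 hx').2 (mem_sdiff.1 hx).1
    · rw [disjoint_left]
      intro x hx hx'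
      rw [mem_sdiff] at hx'
      rcases mem_union.1 hx with h | h
      · exact hx'.2 (subset_nb g (mem_sdiff.1 h).1)
      · exact hx'.2 (mem_sdiff.1 h).1
  calc p ^ (g \ c₀).card * (1 - p) ^ (nb adj g \ g).card
      = p ^ (g \ c₀).card * (1 - p) ^ (nb adj g \ g).card *
        ∑ R ∈ (univ \ nb adj g).powerset,
          p ^ R.card * (1 - p) ^ ((univ \ nb adj g : Finset B).card - R.card) := by
        rw [← hone, mul_one]
    _ = _ := by
      clear hone
      rw [Finset.mul_sum]
      refine Finset.sum_bij' (fun R _ => (g \ c₀) ∪ R) (fun S _ => S \ g) ?_ ?_ ?_ ?_ ?_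
      · intro R hR
        rw [mem_powerset] at hR
        rw [mem_filter, mem_powerset]
        refine ⟨union_subset (fun x hx => ?_) (fun x hx => ?_), subset_union_left, ?_⟩
        · exact mem_sdiff.2 ⟨mem_univ x, (mem_sdiff.1 hx).2⟩
        · exact mem_sdiff.2 ⟨mem_univ x, fun h2 => (mem_sdiff.1 (hR hx)).2 (subset_nb g (hg h2))⟩
        · rw [disjoint_left]
          intro x hx hx'
          rw [mem_sdiff] at hx'
          rcases mem_union.1 hx with h | h
          · exact hx'.2 (mem_sdiff.1 h).1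
          · exact (mem_sdiff.1 (hR h)).2 hx'.1
      · intro S hS
        rw [mem_filter, mem_powerset] at hS
        rw [mem_powerset]
        intro x hx
        rw [mem_sdiff] at hx ⊢
        exact ⟨mem_univ x, fun h2 => disjoint_left.1 hS.2.2 hx.1 (mem_sdiff.2 ⟨h2, hx.2⟩)⟩
      · intro R hR
        rw [mem_powerset] at hR
        ext x
        simp only [mem_sdiff, mem_union]
        constructor
        · rintro ⟨h | h, h2⟩
          · exact absurd h.1 h2
          · exact h
        · intro h
          exact ⟨Or.inr h, fun h2 => (mem_sdiff.1 (hR h)).2 (subset_nb g h2)⟩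
      · intro S hS
        rw [mem_filter, mem_powerset] at hS
        ext x
        simp only [mem_sdiff, mem_union]
        constructor
        · rintro (h | h)
          · exact hS.2.1 (mem_sdiff.2 h)
          · exact h.1
        · intro h
          by_cases h2 : x ∈ g
          · exact Or.inl ⟨h2, (mem_sdiff.1 (hS.1 h)).2⟩
          · exact Or.inr ⟨h, h2⟩
      · intro R hR
        rw [mem_powerset] at hR
        have hd : Disjoint (g \ c₀) R := by
          rw [disjoint_left]
          intro x hx hx'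
          exact (mem_sdiff.1 (hR hx')).2 (subset_nb g (mem_sdiff.1 hx).1)
        have hRc : R.card ≤ (univ \ nb adj g : Finset B).card := card_le_card hR
        rw [card_union_of_disjoint hd, hcard, pow_add,
          show (g \ c₀).card + (nb adj g \ g).card + (univ \ nb adj g : Finset B).card -
            ((g \ c₀).card + R.card) = (nb adj g \ g).card +
              ((univ \ nb adj g : Finset B).card - R.card) by omega, pow_add]
        ring

open Classical in
/-- **percolation inequality** -/
theorem sum_conn_le_one {p : ℝ} (hp0 : 0 ≤ p) (hp1 : p ≤ 1) {c₀ : Finset B}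
    (hc : c₀.Nonempty) :
    ∑ g ∈ univ.filter (fun g : Finset B => c₀ ⊆ g ∧ Conn adj g),
      p ^ (g \ c₀).card * (1 - p) ^ (nb adj g \ g).card ≤ 1 := by
  have h1 : ∑ g ∈ univ.filter (fun g : Finset B => c₀ ⊆ g ∧ Conn adj g),
      p ^ (g \ c₀).card * (1 - p) ^ (nb adj g \ g).card =
      ∑ S ∈ (univ \ c₀ : Finset B).powerset,
        ∑ g ∈ univ.filter (fun g : Finset B => c₀ ⊆ g ∧ Conn adj g),
          if Cp adj c₀ g S then p ^ S.card * (1 - p) ^ ((univ \ c₀ : Finset B).card - S.card)
          else 0 := by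
    rw [Finset.sum_comm]
    refine Finset.sum_congr rfl fun g hg => ?_
    rw [weight_eq p (mem_filter.1 hg).2.1, Finset.sum_filter]
  rw [h1]
  calc _ ≤ ∑ S ∈ (univ \ c₀ : Finset B).powerset,
        p ^ S.card * (1 - p) ^ ((univ \ c₀ : Finset B).card - S.card) := by
        refine Finset.sum_le_sum fun S _ => ?_
        have hw : 0 ≤ p ^ S.card * (1 - p) ^ ((univ \ c₀ : Finset B).card - S.card) :=
          mul_nonneg (pow_nonneg hp0 _) (pow_nonneg (by linarith) _)
        by_cases hex : ∃ g : Finset B, (c₀ ⊆ g ∧ Conn adj g) ∧ Cp adj c₀ g S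
        · obtain ⟨g, hg, hgS⟩ := hex
          rw [Finset.sum_eq_single g]
          · rw [if_pos hgS]
          · intro g' hg' hne
            rw [if_neg]
            intro h
            have hg'' := (mem_filter.1 hg').2
            exact hne (Subset.antisymm (Cp.sub hc hg''.1 hg.1 hg''.2 h hgS)
              (Cp.sub hc hg.1 hg''.1 hg.2 hgS h))
          · intro h
            exact absurd (mem_filter.2 ⟨mem_univ g, hg⟩) h
        · rw [Finset.sum_eq_zero]
          · exact hw
          · intro g hg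
            rw [if_neg]
            exact fun h => hex ⟨g, (mem_filter.1 hg).2, h⟩
    _ = 1 := by
        rw [Finset.sum_pow_mul_eq_add_pow]
        simp

open Classical in
/-- **number of connected sets with `m` points outside a given set** -/
theorem card_conn_le {Δ k m : ℕ} {M : ℝ} (hM : 0 < M) {c₀ : Finset B} (hc : c₀.Nonempty)
    (hk : c₀.card = k) (hΔ : ∀ g : Finset B, (nb adj g \ g).card ≤ Δ * g.card) :
    ((univ.filter (fun g : Finset B => c₀ ⊆ g ∧ Conn adj g ∧ (g \ c₀).card = m)).card : ℝ) ≤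
      (1 + M) ^ m * Real.exp (Δ * (k + m) / M) := by
  set p : ℝ := (1 + M)⁻¹ with hp
  have hp0 : 0 < p := by positivity
  have hp1 : p < 1 := inv_lt_one_of_one_lt₀ (by linarith)
  have h1 := sum_conn_le_one (adj := adj) hp0.le hp1.le hc
  set F := univ.filter (fun g : Finset B => c₀ ⊆ g ∧ Conn adj g ∧ (g \ c₀).card = m) with hF
  have hsub : F ⊆ univ.filter (fun g : Finset B => c₀ ⊆ g ∧ Conn adj g) := by
    intro g hg
    rw [hF, mem_filter] at hg
    rw [mem_filter]
    exact ⟨hg.1, hg.2.1, hg.2.2.1⟩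
  have h2 : ∑ g ∈ F, p ^ (g \ c₀).card * (1 - p) ^ (nb adj g \ g).card ≤ 1 :=
    (Finset.sum_le_sum_of_subset_of_nonneg hsub fun g _ _ =>
      mul_nonneg (pow_nonneg hp0.le _) (pow_nonneg (by linarith) _)).trans h1
  have h3 : ∀ g ∈ F, p ^ m * (1 - p) ^ (Δ * (k + m)) ≤
      p ^ (g \ c₀).card * (1 - p) ^ (nb adj g \ g).card := by
    intro g hg
    rw [hF, mem_filter] at hg
    rw [hg.2.2.2]
    refine mul_le_mul_of_nonneg_left ?_ (pow_nonneg hp0.le _)
    refine pow_le_pow_of_le_one (by linarith) (by linarith) ((hΔ g).trans ?_)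
    have : g.card = k + m := by
      rw [← hk, ← hg.2.2.2, ← card_sdiff_add_card_eq_card hg.2.1]
      ring
    rw [this]
  have h4 : (F.card : ℝ) * (p ^ m * (1 - p) ^ (Δ * (k + m))) ≤ 1 := by
    refine le_trans ?_ h2
    rw [← nsmul_eq_mul]
    exact Finset.card_nsmul_le_sum F _ _ h3
  have h5 : 0 < p ^ m * (1 - p) ^ (Δ * (k + m)) :=
    mul_pos (pow_pos hp0 _) (pow_pos (by linarith) _)
  have h6 : (F.card : ℝ) ≤ (p ^ m * (1 - p) ^ (Δ * (k + m)))⁻¹ := by
    rw [inv_eq_one_div, le_div_iff₀ h5]
    exact h4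
  refine h6.trans ?_
  rw [mul_inv, ← inv_pow, hp, inv_inv, ← inv_pow]
  refine mul_le_mul_of_nonneg_left ?_ (by positivity)
  have h7 : (1 - (1 + M)⁻¹)⁻¹ ≤ Real.exp (1 / M) := by
    have h8 : (1 - (1 + M)⁻¹)⁻¹ = 1 / M + 1 := by
      have h9 : (1 : ℝ) - (1 + M)⁻¹ = M / (1 + M) := by
        have : (1 + M) ≠ 0 := by positivity
        field_simp
        ring
      rw [h9, inv_div, add_div, div_self hM.ne']
    rw [h8]
    exact Real.add_one_le_exp _
  calc ((1 - (1 + M)⁻¹)⁻¹) ^ (Δ * (k + m)) ≤ (Real.exp (1 / M)) ^ (Δ * (k + m)) := by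
        refine pow_le_pow_left₀ ?_ h7 _
        rw [inv_nonneg]
        linarith
    _ = _ := by
        rw [← Real.exp_nat_mul]
        congr 1
        push_cast
        ring

end

end Vale.Agent.P050.R4.H998
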