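import Mathlib

set_option autoImplicit false

/-!
# Abstract gas of connected sets

`adj` a relation on a finite type `B`; `Conn adj g`: the finite set `g` is connected.
`comp_unique`: the component of a point in a finite set.
`sum_insert`: the polymer recursion.
-/

namespace Vale.Agent.P050.R4.H998

open Finset

variable {B : Type*} [Fintype B] [DecidableEq B]

/-- `g` is nonempty and every proper nonempty subset is joined to its complement in `g` -/
def Conn (adj : B → B → Prop) (g : Finset B) : Prop :=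
  g.Nonempty ∧ ∀ h ⊆ g, h.Nonempty → h ≠ g → ∃ a ∈ h, ∃ c ∈ g \ h, adj a c

/-- the closed neighbourhood -/
def nb (adj : B → B → Prop) [DecidableRel adj] (g : Finset B) : Finset B :=
  univ.filter fun c => c ∈ g ∨ ∃ a ∈ g, adj a c

/-- `g` is the component of `b` in `T` -/
def IsComp (adj : B → B → Prop) (b : B) (T g : Finset B) : Prop :=
  g ⊆ T ∧ b ∈ g ∧ Conn adj g ∧ ∀ a ∈ g, ∀ c ∈ T \ g, ¬ adj a c

lemma conn_single (adj : B → B → Prop) (b : B) : Conn adj {b} := by
  refine ⟨singleton_nonempty b, fun h hh hn hne => ?_⟩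
  rcases Finset.subset_singleton_iff.1 hh with h0 | h0
  · exact absurd h0 hn.ne_empty
  · exact absurd h0 hne

lemma conn_insert {adj : B → B → Prop} (hs : ∀ a c, adj a c → adj c a) {g : Finset B}
    (hg : Conn adj g) {a c : B} (ha : a ∈ g) (hac : adj a c) : Conn adj (insert c g) := by
  by_cases hc : c ∈ g
  · rwa [insert_eq_of_mem hc]
  refine ⟨insert_nonempty c g, fun h hh hn hne => ?_⟩
  by_cases hch : c ∈ h
  · -- `h` contains `c`
    by_cases hge : (h.erase c) = g
    · exact absurd (by rw [← hge, insert_erase hch]) hne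
    · by_cases hem : (h.erase c).Nonempty
      · have hsub : h.erase c ⊆ g := by
          intro x hx
          rcases mem_insert.1 (hh (mem_of_mem_erase hx)) with h1 | h1
          · exact absurd h1 (ne_of_mem_erase hx)
          · exact h1
        obtain ⟨x, hx, y, hy, hxy⟩ := hg.2 _ hsub hem hge
        refine ⟨x, mem_of_mem_erase hx, y, ?_, hxy⟩
        rw [mem_sdiff] at hy ⊢
        refine ⟨mem_insert_of_mem hy.1, fun hyh => hy.2 (mem_erase.2 ⟨?_, hyh⟩)⟩
        rintro rfl
        exact hc hy.1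
      · have hhc : h = {c} := by
          apply Finset.eq_singleton_iff_unique_mem.2
          refine ⟨hch, fun x hx => ?_⟩
          by_contra hxc
          exact hem ⟨x, mem_erase.2 ⟨hxc, hx⟩⟩
        refine ⟨c, hch, a, ?_, hs _ _ hac⟩
        rw [mem_sdiff, hhc, mem_singleton]
        exact ⟨mem_insert_of_mem ha, fun h1 => hc (h1 ▸ ha)⟩
  · have hsub : h ⊆ g := by
      intro x hx
      rcases mem_insert.1 (hh hx) with h1 | h1
      · exact absurd (h1 ▸ hx) hch
      · exact h1
    by_cases hge : h = g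
    · subst hge
      exact ⟨a, ha, c, by simp [hc], hac⟩
    · obtain ⟨x, hx, y, hy, hxy⟩ := hg.2 _ hsub hn hge
      refine ⟨x, hx, y, ?_, hxy⟩
      rw [mem_sdiff] at hy ⊢
      exact ⟨mem_insert_of_mem hy.1, hy.2⟩

lemma exists_comp {adj : B → B → Prop} (hs : ∀ a c, adj a c → adj c a) {b : B} {T : Finset B}
    (hb : b ∈ T) : ∃ g, IsComp adj b T g := by
  classical
  set F := T.powerset.filter fun g => b ∈ g ∧ Conn adj g with hF
  have hne : F.Nonempty := ⟨{b}, by
    rw [hF, mem_filter, mem_powerset]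
    exact ⟨singleton_subset_iff.2 hb, mem_singleton_self b, conn_single adj b⟩⟩
  obtain ⟨g, hgF, hmax⟩ := exists_max_image F card hne
  rw [hF, mem_filter, mem_powerset] at hgF
  refine ⟨g, hgF.1, hgF.2.1, hgF.2.2, fun a ha c hc hac => ?_⟩
  rw [mem_sdiff] at hc
  have h1 : insert c g ∈ F := by
    rw [hF, mem_filter, mem_powerset]
    exact ⟨insert_subset hc.1 hgF.1, mem_insert_of_mem hgF.2.1, conn_insert hs hgF.2.2 ha hac⟩
  have h2 := hmax _ h1
  rw [card_insert_of_notMem hc.2] at h2
  omega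

/-- a connected set which meets a component lies in it -/
lemma IsComp.subset {adj : B → B → Prop} {b : B} {T g : Finset B} (h : IsComp adj b T g)
    {g' : Finset B} (hg' : Conn adj g') (hT : g' ⊆ T) (hb : b ∈ g') : g' ⊆ g := by
  by_contra hn
  have h1 : (g' ∩ g) ≠ g' := fun h2 => hn (inter_eq_left.1 h2)
  obtain ⟨x, hx, y, hy, hxy⟩ := hg'.2 (g' ∩ g) inter_subset_left ⟨b, mem_inter.2 ⟨hb, h.2.1⟩⟩ h1
  rw [mem_sdiff, mem_inter] at hy
  exact h.2.2.2 x (mem_inter.1 hx).2 y (mem_sdiff.2 ⟨hT hy.1, fun h3 => hy.2 ⟨hy.1, h3⟩⟩) hxy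

lemma comp_unique {adj : B → B → Prop} {b : B} {T g g' : Finset B} (h : IsComp adj b T g)
    (h' : IsComp adj b T g') : g = g' :=
  Subset.antisymm (h'.subset h.2.2.1 h.1 h.2.1) (h.subset h'.2.2.1 h'.1 h'.2.1)

open Classical in
/-- **polymer recursion** -/
theorem sum_insert {adj : B → B → Prop} (hs : ∀ a c, adj a c → adj c a) (e : Finset B → ℝ)
    (he : ∀ S R : Finset B, Disjoint S R → (∀ a ∈ S, ∀ c ∈ R, ¬ adj a c) → e (S ∪ R) = e S * e R)
    {b : B} {L : Finset B} (hb : b ∉ L) :
    ∑ S ∈ L.powerset, e (insert b S) =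
      ∑ g ∈ (insert b L).powerset.filter (fun g => b ∈ g ∧ Conn adj g),
        e g * ∑ R ∈ (L \ nb adj g).powerset, e R := by
  have h1 : ∀ S ∈ L.powerset, e (insert b S) =
      ∑ g ∈ (insert b L).powerset.filter (fun g => b ∈ g ∧ Conn adj g),
        if IsComp adj b (insert b S) g then e (insert b S) else 0 := by
    intro S hS
    rw [mem_powerset] at hS
    obtain ⟨g, hg⟩ := exists_comp hs (mem_insert_self b S)
    rw [Finset.sum_eq_single g]
    · rw [if_pos hg]
    · intro g' _ hne
      rw [if_neg]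
      exact fun h => hne (comp_unique h hg)
    · intro h
      exfalso
      apply h
      rw [mem_filter, mem_powerset]
      exact ⟨hg.1.trans (insert_subset_insert b hS), hg.2.1, hg.2.2.1⟩
  rw [Finset.sum_congr rfl h1, Finset.sum_comm]
  refine Finset.sum_congr rfl fun g hg => ?_
  rw [mem_filter, mem_powerset] at hg
  rw [← Finset.sum_filter, Finset.mul_sum]
  refine Finset.sum_bij' (fun S _ => insert b S \ g) (fun R _ => (g.erase b) ∪ R) ?_ ?_ ?_ ?_ ?_
  · intro S hS
    rw [mem_filter, mem_powerset] at hS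
    rw [mem_powerset]
    intro x hx
    rw [mem_sdiff] at hx ⊢
    refine ⟨?_, fun hn => ?_⟩
    · rcases mem_insert.1 hx.1 with h2 | h2
      · exact absurd (h2 ▸ hS.2.2.1) hx.2
      · exact hS.1 h2
    · rw [nb, mem_filter] at hn
      rcases hn.2 with h2 | ⟨a, ha, h2⟩
      · exact hx.2 h2
      · exact hS.2.2.2.2 a ha x (mem_sdiff.2 hx) h2
  · intro R hR
    rw [mem_powerset] at hR
    have hRg : ∀ x ∈ R, x ∉ g ∧ ∀ a ∈ g, ¬ adj a x := by
      intro x hx
      have h2 := (mem_sdiff.1 (hR hx)).2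
      rw [nb, mem_filter] at h2
      push Not at h2
      exact ⟨(h2 (mem_univ x)).1, (h2 (mem_univ x)).2⟩
    rw [mem_filter, mem_powerset]
    have hins : insert b (g.erase b ∪ R) = g ∪ R := by
      rw [← insert_union, insert_erase hg.2.1]
    refine ⟨union_subset ?_ (hR.trans sdiff_subset), ?_⟩
    · intro x hx
      rcases mem_insert.1 (hg.1 (mem_of_mem_erase hx)) with h2 | h2
      · exact absurd h2 (ne_of_mem_erase hx)
      · exact h2
    · rw [hins]
      refine ⟨subset_union_left, hg.2.1, hg.2.2, fun a ha c hc => ?_⟩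
      rw [mem_sdiff, mem_union] at hc
      rcases hc.1 with h2 | h2
      · exact absurd h2 hc.2
      · exact (hRg c h2).2 a ha
  · intro S hS
    rw [mem_filter, mem_powerset] at hS
    have hbS : b ∉ S := fun h2 => hb (hS.1 h2)
    ext x
    simp only [mem_union, mem_erase, mem_sdiff, mem_insert]
    constructor
    · rintro (⟨h2, h3⟩ | ⟨h2 | h2, h3⟩)
      · rcases mem_insert.1 (hS.2.1 h3) with h4 | h4
        · exact absurd h4 h2
        · exact h4
      · exact absurd (h2 ▸ hS.2.2.1) h3
      · exact h2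
    · intro hx
      by_cases hxg : x ∈ g
      · exact Or.inl ⟨fun h2 => hbS (h2 ▸ hx), hxg⟩
      · exact Or.inr ⟨Or.inr hx, hxg⟩
  · intro R hR
    rw [mem_powerset] at hR
    have hRg : ∀ x ∈ R, x ∉ g := by
      intro x hx h3
      have h2 := (mem_sdiff.1 (hR hx)).2
      rw [nb, mem_filter] at h2
      exact h2 ⟨mem_univ x, Or.inl h3⟩
    ext x
    simp only [mem_union, mem_erase, mem_sdiff, mem_insert]
    constructor
    · rintro ⟨h2 | h2 | h2, h3⟩
      · exact absurd (h2 ▸ hg.2.1) h3
      · exact absurd h2.2 h3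
      · exact h2
    · intro hx
      exact ⟨Or.inr (Or.inr hx), hRg x hx⟩
  · intro S hS
    rw [mem_filter, mem_powerset] at hS
    rw [← he g (insert b S \ g) disjoint_sdiff hS.2.2.2.2, union_sdiff_of_subset hS.2.1]

end Vale.Agent.P050.R4.H998
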